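import Vale.Agent.P016Q.Good

/-! A positive proportion of the primes in `(x, l x)` have `a` as a primitive root. -/

noncomputable section
namespace ART
open Complex MeasureTheory NumberField Filter
open scoped Classical Topology

/-- The quantitative form. -/
def ArtinQ : Prop := ∀ a : ℤ, a ≠ -1 → ¬ IsSquare a → ∀ l : ℝ, 1 < l → ∃ c : ℝ, 0 < c ∧
  ∀ᶠ x : ℝ in atTop, c * x / Real.log x ≤
    (Set.ncard {p : ℕ | p.Prime ∧ x < p ∧ (p : ℝ) < l * x ∧ ¬ (p : ℤ) ∣ a ∧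
      orderOf (a : ZMod p) = p - 1} : ℝ)

theorem artinQ_of (h1 : GoodQ) (h2 : Cls) (h3 : Bad) : ArtinQ := by
  intro a ha hsq l hl1
  obtain ⟨c, hc, h1⟩ := h1
  obtain ⟨c', hc', h2⟩ := h2 a hsq
  obtain ⟨C, z1, h3⟩ := h3 a ha hsq
  obtain ⟨m, hm, hml⟩ := exists_between hl1
  have hm1 : 0 < m - 1 := by linarith
  have hcc : 0 < c * c' * (m - 1) := by positivity
  obtain ⟨z, hz1, hz2, hz3⟩ : ∃ z : ℕ, 1 ≤ z ∧ z1 ≤ z ∧ |C| * m + 1 ≤ c * c' * (m - 1) * √z := by
    obtain ⟨n, hn⟩ := exists_nat_ge (((|C| * m + 1) / (c * c' * (m - 1))) ^ 2)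
    refine ⟨max (max 1 z1) n, (le_max_left _ _).trans (le_max_left _ _),
      (le_max_right _ _).trans (le_max_left _ _), ?_⟩
    have h4 : (|C| * m + 1) / (c * c' * (m - 1)) ≤ √((max (max 1 z1) n : ℕ) : ℝ) :=
      Real.le_sqrt_of_sq_le (hn.trans (Nat.cast_le.2 (le_max_right _ _)))
    rwa [div_le_iff₀' hcc] at h4
  obtain ⟨W, R, hW, hR, hcard, hcls⟩ := h2 z hz1
  have hz0 : (0 : ℝ) < z := by exact_mod_cast hz1
  have hs0 : 0 < √(z : ℝ) := Real.sqrt_pos.2 hz0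
  have hφ : (0 : ℝ) < Nat.totient W := by exact_mod_cast Nat.totient_pos.2 hW
  refine ⟨1 / (2 * z), by positivity, ?_⟩
  filter_upwards [(eventually_all_finset R).2 fun r hr => h1 W r hW (hR r hr).2 m hm,
    (Q_floor hm).eventually (h3 z hz2), Q_size hm, eventually_gt_atTop 0] with x hx1 hx2 h4 hx0
  obtain ⟨h4, hle, -, hlog⟩ := h4
  have hnx : (⌊x⌋₊ : ℝ) ≤ x := Nat.floor_le hx0.le
  have hXx : (⌊m * x⌋₊ : ℝ) ≤ m * x := Nat.floor_le (by positivity)
  have hlt : ∀ p : ℕ, ⌊x⌋₊ < p → x < p := fun p hp => Nat.lt_of_floor_lt hp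
  generalize ⌊m * x⌋₊ = X at *
  generalize ⌊x⌋₊ = n at *
  have hn1 : (1 : ℝ) < n := by exact_mod_cast h4
  have hle' : (n : ℝ) ≤ X := by exact_mod_cast hle
  have hL : 0 < Real.log X := Real.log_pos (by linarith)
  have hlx : Real.log n ≤ Real.log x := Real.log_le_log (by linarith) hnx
  have hlx0 : 0 < Real.log x := Real.log_pos (by linarith)
  have hfin : {p : ℕ | p.Prime ∧ x < p ∧ (p : ℝ) < l * x ∧ ¬ (p : ℤ) ∣ a ∧
      orderOf (a : ZMod p) = p - 1}.Finite :=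
    (Set.finite_lt_nat ⌈l * x⌉₊).subset fun p hp => Nat.lt_ceil.2 hp.2.2.1
  rw [Set.ncard_eq_toFinset_card _ hfin]
  set G : ℕ → Finset ℕ := fun r => (Finset.Ioc n X).filter fun p : ℕ =>
    p.Prime ∧ p ≡ r [MOD W] ∧ ∃ d ∈ DD X, d ∣ p - 1 with hG
  have hmod : ∀ r ∈ R, ∀ p ∈ G r, p % W = r := fun r hr p hp => by
    have h5 : p % W = r % W := (Finset.mem_filter.1 hp).2.2.1
    rw [h5, Nat.mod_eq_of_lt (hR r hr).1]
  have hdis : (R : Set ℕ).PairwiseDisjoint G := fun r hr r' hr' hne =>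
    Finset.disjoint_left.2 fun p hp hp' => hne ((hmod r hr p hp).symm.trans (hmod r' hr' p hp'))
  have hsub : R.biUnion G ⊆ hfin.toFinset ∪ (Finset.Icc 1 X).filter fun p : ℕ =>
      p.Prime ∧ ¬ IsSquare (a : ZMod p) ∧ (∀ q : ℕ, q.Prime → 3 ≤ q → q ≤ z → ¬ q ∣ p - 1) ∧
        (∃ d ∈ DD X, d ∣ p - 1) ∧ orderOf (a : ZMod p) ≠ p - 1 := by
    intro p hp
    obtain ⟨r, hr, hp⟩ := Finset.mem_biUnion.1 hp
    obtain ⟨hI, hpr, -, hd⟩ := Finset.mem_filter.1 hp
    obtain ⟨h5, h6⟩ := hcls p hpr (by rw [hmod r hr p hp]; exact hr)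
    obtain ⟨i1, i2⟩ := Finset.mem_Ioc.1 hI
    by_cases ho : orderOf (a : ZMod p) = p - 1
    · have i3 : (p : ℝ) ≤ X := by exact_mod_cast i2
      refine Finset.mem_union_left _ (hfin.mem_toFinset.2
        ⟨hpr, hlt p i1, by nlinarith, fun hd => h5 ?_, ho⟩)
      rw [(ZMod.intCast_zmod_eq_zero_iff_dvd a p).2 hd]
      exact IsSquare.zero
    · exact Finset.mem_union_right _ (Finset.mem_filter.2
        ⟨Finset.mem_Icc.2 ⟨hpr.one_le, i2⟩, hpr, h5, h6, hd, ho⟩)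
  have h7 := (Finset.card_le_card hsub).trans (Finset.card_union_le _ _)
  rw [Finset.card_biUnion hdis] at h7
  have h8 : (R.card : ℝ) * (c * (m - 1) * x / (Nat.totient W * Real.log X)) ≤
      ∑ r ∈ R, ((G r).card : ℝ) := by
    rw [← nsmul_eq_mul]
    exact Finset.card_nsmul_le_sum R _ _ hx1
  have h9 : ∑ r ∈ R, ((G r).card : ℝ) ≤ hfin.toFinset.card + C * X / (z * Real.log X) := by
    refine le_trans ?_ (add_le_add_right hx2 _)
    exact_mod_cast h7
  have h10 : c' * Nat.totient W / √z * (c * (m - 1) * x / (Nat.totient W * Real.log X)) ≤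
      (R.card : ℝ) * (c * (m - 1) * x / (Nat.totient W * Real.log X)) :=
    mul_le_mul_of_nonneg_right hcard (by positivity)
  have h11 : c' * Nat.totient W / √z * (c * (m - 1) * x / (Nat.totient W * Real.log X)) =
      c * c' * (m - 1) * √z * (x / (z * Real.log X)) := by
    have h12 : (z : ℝ) = √z * √z := (Real.mul_self_sqrt hz0.le).symm
    generalize √(z : ℝ) = t at h12 hs0
    rw [h12]
    field_simp
  have h13 : (|C| * m + 1) * (x / (z * Real.log X)) ≤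
      c * c' * (m - 1) * √z * (x / (z * Real.log X)) :=
    mul_le_mul_of_nonneg_right hz3 (by positivity)
  have h14 : C * X / (z * Real.log X) ≤ |C| * m * (x / (z * Real.log X)) := by
    rw [← mul_div_assoc]
    refine div_le_div_of_nonneg_right ?_ (by positivity)
    rw [mul_assoc]
    exact mul_le_mul (le_abs_self C) hXx (by positivity) (abs_nonneg C)
  have h15 : 1 / (2 * z) * x / Real.log x ≤ x / (z * Real.log X) := by
    rw [one_div_mul_eq_div, div_div]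
    refine div_le_div_of_nonneg_left hx0.le (by positivity) ?_
    nlinarith
  linarith

end ART
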