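import Vale.Agent.P016.Good

/-! Primes with a large prime factor of `p - 1` in an interval `(x, m x]`. -/

noncomputable section
namespace ART
open Complex MeasureTheory NumberField Filter
open scoped Classical Topology

theorem Q_floor {m : ℝ} (hm : 1 < m) : Tendsto (fun x : ℝ => ⌊m * x⌋₊) atTop atTop :=
  tendsto_nat_floor_atTop.comp (tendsto_id.const_mul_atTop (by linarith))

open ArithmeticFunction in
theorem Q_pap {W r : ℕ} (hW : 0 < W) (hr : Nat.Coprime r W) {m : ℝ} (hm : 1 < m) :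
    ∀ᶠ x : ℝ in atTop, (m - 1) * x / (2 * Nat.totient W) ≤
      (((Finset.Ioc ⌊x⌋₊ ⌊m * x⌋₊).filter fun p : ℕ => p.Prime ∧ p ≡ r [MOD W]).card : ℝ)
        * Real.log ⌊m * x⌋₊ := by
  have : NeZero W := ⟨hW.ne'⟩
  have hφ : (0 : ℝ) < Nat.totient W := by exact_mod_cast Nat.totient_pos.2 hW
  have hm0 : 0 < m := by linarith
  have h1 := Vale.Agent.P031.pnt_residueClass (q := W) (a := (r : ZMod W))
    ((ZMod.isUnit_iff_coprime r W).2 hr)
  have h2 := Vale.Agent.P031.pnt_psi.sub Vale.Agent.P031.pnt_theta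
  have hmx : Tendsto (fun x : ℝ => m * x) atTop atTop := tendsto_id.const_mul_atTop hm0
  have h3 := (((h1.sub h2).comp hmx).const_mul m).sub h1
  have h4 : (m - 1) / (2 * Nat.totient W) <
      m * ((Nat.totient W : ℝ)⁻¹ - (1 - 1)) - (Nat.totient W : ℝ)⁻¹ := by
    have e : m * ((Nat.totient W : ℝ)⁻¹ - (1 - 1)) - (Nat.totient W : ℝ)⁻¹
        = (m - 1) / Nat.totient W := by
      field_simp
      ring
    rw [e]
    exact div_lt_div_of_pos_left (by linarith) hφ (by linarith)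
  filter_upwards [h3.eventually (lt_mem_nhds h4), eventually_ge_atTop 1] with x hx hx1
  have hx0 : (0 : ℝ) < x := by linarith
  have hle : ⌊x⌋₊ ≤ ⌊m * x⌋₊ := Nat.floor_mono (by nlinarith)
  simp only [Function.comp_apply] at hx
  have e1 : ∀ A B C D : ℝ, m * (A / (m * x) - (B / (m * x) - C / (m * x))) - D / x
      = (A - D - (B - C)) / x := by
    intro A B C D
    field_simp
    ring
  rw [e1, lt_div_iff₀ hx0, Chebyshev.psi_sub_theta_eq_sum_not_prime, div_mul_eq_mul_div] at hx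
  refine hx.le.trans ?_
  have e2 : ∀ y : ℕ, Finset.Icc 1 y = Finset.Ioc 0 y := fun y => by
    rw [← Finset.Icc_add_one_left_eq_Ioc, zero_add]
  rw [e2, e2, ← Finset.sum_Ioc_consecutive _ (Nat.zero_le ⌊x⌋₊) hle, add_sub_cancel_left]
  have h5 : ∑ k ∈ (Finset.Ioc ⌊x⌋₊ ⌊m * x⌋₊).filter (fun k => ¬ k.Prime), vonMangoldt k ≤
      ∑ k ∈ (Finset.Ioc 0 ⌊m * x⌋₊).filter (fun k => ¬ k.Prime), vonMangoldt k :=
    Finset.sum_le_sum_of_subset_of_nonneg
      (Finset.filter_subset_filter _ (Finset.Ioc_subset_Ioc_left (Nat.zero_le _)))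
      fun _ _ _ => vonMangoldt_nonneg
  refine le_trans (sub_le_sub_left h5 _) ?_
  rw [Finset.sum_filter, ← Finset.sum_sub_distrib, ← nsmul_eq_mul, ← Finset.sum_const,
    Finset.sum_filter]
  refine Finset.sum_le_sum fun k hk => ?_
  rw [Finset.mem_Ioc] at hk
  by_cases hp : k.Prime
  · rw [if_neg (not_not.2 hp), sub_zero]
    by_cases hkr : k ≡ r [MOD W]
    · rw [if_pos ⟨hp, hkr⟩]
      refine (vonMangoldt.residueClass_le _ _).trans ?_
      rw [vonMangoldt_apply_prime hp]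
      exact Real.log_le_log (by exact_mod_cast hp.pos) (by exact_mod_cast hk.2)
    · rw [if_neg fun h => hkr h.2]
      refine le_of_eq (Set.indicator_of_notMem ?_ _)
      exact fun h => hkr ((ZMod.natCast_eq_natCast_iff _ _ _).1 h)
  · rw [if_pos hp, if_neg fun h => hp h.1, sub_nonpos]
    exact vonMangoldt.residueClass_le _ _

theorem Q_size {m : ℝ} (hm : 1 < m) : ∀ᶠ x : ℝ in atTop, 2 ≤ ⌊x⌋₊ ∧ ⌊x⌋₊ ≤ ⌊m * x⌋₊ ∧
    (⌊m * x⌋₊ : ℝ) ^ (399 / 400 : ℝ) ≤ (⌊x⌋₊ : ℝ) ^ (1 - 1 / 500 : ℝ) ∧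
    Real.log ⌊m * x⌋₊ ≤ 2 * Real.log ⌊x⌋₊ := by
  have ht : Tendsto (fun x : ℝ => (⌊x⌋₊ : ℝ)) atTop atTop :=
    tendsto_natCast_atTop_atTop.comp tendsto_nat_floor_atTop
  filter_upwards [((tendsto_rpow_atTop (show (0 : ℝ) < 1 / 2000 by norm_num)).comp
    ht).eventually_ge_atTop (2 * m), ht.eventually_ge_atTop (2 * m),
    tendsto_nat_floor_atTop.eventually_ge_atTop 2, eventually_ge_atTop 0] with x h1 h2 h3 h4
  simp only [Function.comp_apply] at h1
  have hn : (2 : ℝ) ≤ ⌊x⌋₊ := by exact_mod_cast h3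
  have h5 := Nat.lt_floor_add_one x
  have h6 : (⌊m * x⌋₊ : ℝ) ≤ 2 * m * ⌊x⌋₊ :=
    (Nat.floor_le (by positivity)).trans (by nlinarith)
  have hle : ⌊x⌋₊ ≤ ⌊m * x⌋₊ := Nat.floor_mono (by nlinarith)
  have hle' : (⌊x⌋₊ : ℝ) ≤ ⌊m * x⌋₊ := by exact_mod_cast hle
  refine ⟨h3, hle, ?_, ?_⟩
  · refine (Real.rpow_le_rpow (by positivity) h6 (by norm_num)).trans ?_
    rw [Real.mul_rpow (by positivity) (by positivity),
      show (1 - 1 / 500 : ℝ) = 1 / 2000 + 399 / 400 by norm_num, Real.rpow_add (by positivity)]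
    refine mul_le_mul_of_nonneg_right (le_trans ?_ h1) (by positivity)
    simpa using Real.rpow_le_rpow_of_exponent_le (show (1 : ℝ) ≤ 2 * m by linarith)
      (show (399 / 400 : ℝ) ≤ 1 by norm_num)
  · have h7 : (⌊m * x⌋₊ : ℝ) ≤ (⌊x⌋₊ : ℝ) ^ 2 := by nlinarith
    have h8 := Real.log_le_log (by linarith) h7
    rwa [Real.log_pow, Nat.cast_ofNat] at h8

/-- Many primes `p` of a class in `(x, m x]` have a large prime factor of `p - 1`. -/
def GoodQ : Prop := ∃ c : ℝ, 0 < c ∧ ∀ W r : ℕ, 0 < W → Nat.Coprime r W → ∀ m : ℝ, 1 < m →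
  ∀ᶠ x : ℝ in atTop, c * (m - 1) * x / (Nat.totient W * Real.log ⌊m * x⌋₊) ≤
    (((Finset.Ioc ⌊x⌋₊ ⌊m * x⌋₊).filter fun p : ℕ =>
      p.Prime ∧ p ≡ r [MOD W] ∧ ∃ d ∈ DD ⌊m * x⌋₊, d ∣ p - 1).card : ℝ)

theorem goodQ (h : Vale.Agent.P005.EHstar) : GoodQ := by
  obtain ⟨c, hc, H⟩ := Good_mertens
  refine ⟨c / 4, by positivity, fun W r hW hr m hm => ?_⟩
  have hφ : (0 : ℝ) < Nat.totient W := by exact_mod_cast Nat.totient_pos.2 hW
  have hm1 : 0 < m - 1 := by linarith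
  have hE := h (1 / 500) (by norm_num) W r hW hr (c * (m - 1) / (4 * Nat.totient W * (m + 2)))
    (by positivity)
  filter_upwards [(Q_floor hm).eventually H, Q_pap hW hr hm, (Q_floor hm).eventually hE,
    tendsto_nat_floor_atTop.eventually hE, Q_size hm, eventually_ge_atTop 0]
    with x h1 h2 h3 h3' h4 hx0
  obtain ⟨h4, hle, hr1, hlog⟩ := h4
  have hnx : (⌊x⌋₊ : ℝ) ≤ x := Nat.floor_le hx0
  have hXx : (⌊m * x⌋₊ : ℝ) ≤ m * x := Nat.floor_le (by positivity)
  generalize ⌊m * x⌋₊ = X at *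
  generalize ⌊x⌋₊ = n at *
  have hn1 : (1 : ℝ) < n := by exact_mod_cast h4
  have hle' : (n : ℝ) ≤ X := by exact_mod_cast hle
  have hx1 : (1 : ℝ) < X := by linarith
  have hl : 0 < Real.log X := Real.log_pos hx1
  have hl' : 0 < Real.log n := Real.log_pos hn1
  have hro : ∀ d, (if d ∈ DD X then (1 : ℝ) else 0) ≠ 0 →
      Vale.Agent.P005.Rough (1 / 500) X d ∧ Vale.Agent.P005.Rough (1 / 500) n d := by
    intro d hd
    have hd' : d ∈ DD X := by
      by_contra h0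
      exact hd (if_neg h0)
    obtain ⟨-, a1, a2, a3⟩ := Finset.mem_filter.1 hd'
    have a4 : (X : ℝ) ^ (1 / 500 : ℝ) ≤ d :=
      (Real.rpow_le_rpow_of_exponent_le hx1.le (by norm_num)).trans a2
    refine ⟨⟨a1.one_le, a3.trans (Real.rpow_le_rpow_of_exponent_le hx1.le (by norm_num)),
      fun q hq hqd => ?_⟩, a1.one_le, a3.trans hr1, fun q hq hqd => ?_⟩
    · rw [(Nat.prime_dvd_prime_iff_eq hq a1).1 hqd]
      exact a4
    · rw [(Nat.prime_dvd_prime_iff_eq hq a1).1 hqd]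
      exact (Real.rpow_le_rpow (by positivity) hle' (by norm_num)).trans a4
  have hab : ∀ d, |(if d ∈ DD X then (1 : ℝ) else 0)| ≤ 1 := fun d => by split_ifs <;> simp
  have h5 := (abs_le.1 (h3 _ hab fun d hd => (hro d hd).1)).1
  have h5' := (abs_le.1 (h3' _ hab fun d hd => (hro d hd).2)).2
  have e1 : ∀ y : ℕ, DD X ⊆ Finset.Icc 1 y →
      ∑ d ∈ Finset.Icc 1 y, (if d ∈ DD X then (1 : ℝ) else 0) / d = ∑ d ∈ DD X, (1 : ℝ) / d := by
    intro y hy
    simp only [ite_div, zero_div]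
    rw [← Finset.sum_filter, Finset.filter_mem_eq_inter, Finset.inter_eq_right.2 hy]
  have hsub : DD X ⊆ Finset.Icc 1 n := by
    intro d hd
    obtain ⟨b1, b2, -⟩ := (hro d (by rw [if_pos hd]; exact one_ne_zero)).2
    have b3 : (n : ℝ) ^ (1 - 1 / 500 : ℝ) ≤ n := by
      simpa using Real.rpow_le_rpow_of_exponent_le hn1.le
        (show (1 - 1 / 500 : ℝ) ≤ 1 by norm_num)
    exact Finset.mem_Icc.2 ⟨b1, by exact_mod_cast b2.trans b3⟩
  rw [e1 X (Finset.filter_subset _ _)] at h5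
  rw [e1 n hsub] at h5'
  have e2 : ∀ y : ℕ, Finset.Icc 1 y = Finset.Ioc 0 y := fun y => by
    rw [← Finset.Icc_add_one_left_eq_Ioc, zero_add]
  rw [e2, Finset.sum_filter] at h5 h5'
  rw [← Finset.sum_Ioc_consecutive _ (Nat.zero_le n) hle, ← Finset.sum_filter (s := Finset.Ioc n X),
    Finset.sum_sub_distrib, Finset.sum_const, nsmul_eq_mul] at h5
  have h6 := Finset.sum_le_sum (s := (Finset.Ioc n X).filter fun p => p.Prime ∧ p ≡ r [MOD W])
    fun p hp => Good_div (x := X) (p := p) (by omega)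
      (Finset.mem_Ioc.1 (Finset.mem_filter.1 hp).1).2
  rw [Finset.sum_boole, Finset.filter_filter] at h6
  simp only [and_assoc] at h6
  refine le_trans ?_ h6
  rw [← div_le_iff₀ hl] at h2
  have h7 := mul_le_mul h2 h1 hc.le (Nat.cast_nonneg _)
  set η := c * (m - 1) / (4 * Nat.totient W * (m + 2)) with hη
  have hη0 : 0 < η := by positivity
  have h8 : η * X / Real.log X ≤ η * (m * x) / Real.log X :=
    div_le_div_of_nonneg_right (mul_le_mul_of_nonneg_left hXx hη0.le) hl.le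
  have h9 : η * n / Real.log n ≤ η * (2 * x) / Real.log X := by
    rw [div_le_div_iff₀ hl' hl]
    have := mul_le_mul hnx hlog hl.le hx0
    nlinarith
  have e3 : c / 4 * (m - 1) * x / (Nat.totient W * Real.log X) =
      (m - 1) * x / (2 * Nat.totient W) / Real.log X * c
        - η * (m * x) / Real.log X - η * (2 * x) / Real.log X := by
    rw [hη]
    field_simp
    ring
  rw [e3]
  linarith

end ART
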