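import Vale.Agent.P016.Main
import Vale.Agent.P016Q.Fin

namespace ART

theorem artinQ_asm (h1 : Vale.Agent.P005.EHstar) (h2 : ZFree) (h3 : ZetaA) (h4 : LDer)
    (h5 : Cont) : ArtinQ :=
  artinQ_of (goodQ h1) (cls cls0) (bad (kCount (pITK (hK (hZ exPhi pushF (unf eP) (poisK poisL)
    (zpB eP h3) (tail (unf eP) (zpB eP h3))) (clsZ eP h3)) h2 (dec eP) rm3 discB h3 h4 h5) kumK h3))

/-- Artin's primitive root conjecture with a positive proportion of the primes. -/
theorem artinQ : ArtinQ :=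
  artinQ_asm Vale.Agent.P005.ehstar (zFree NQ.heckeB NQ.zf) (fun F _ _ => NQ.zetaF F)
    (NQ.lDer NQ.bC) NQ.cont

end ART
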